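import Vale.Agent.P091.HEART.H896.Unit

/-!
# P091, heart, row H1 / P_CUT (helper896): `UNIT` with threshold `1/2` and growth `θ R / 5`
-/

set_option autoImplicit false

open Finset Real
open Vale.Agent.P065.Ent

noncomputable section

namespace Vale.Agent.P091.Heart.H896

open Vale.Agent.P091.AD

/-- the letter `a` is unexplained by `RJ` (threshold `1/2`) -/
def UnexplH {Γ J : Type} [AddCommGroup Γ] [Fintype J] (μJ : J → ℝ) (RJ : J → Γ) (α : Γ → ℝ)
    (h : ℝ) (a : Γ) : Prop := 1 / 2 ≤ ∑ j, μJ j *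
    (if exp h * ∑ i, μJ i * α (RJ j + a - RJ i) < Pr μJ RJ (RJ j) then 1 else 0)

/-- **UNIT**, threshold `1/2`, growth `θ R / 5`, two letters of `A` -/
def UNITH : Prop := ∃ c C C1 R0 : ℝ, 0 < c ∧ 0 < C ∧ 0 < C1 ∧ 1 < R0 ∧
  ∀ (G : Type) [AddCommGroup G] [Fintype G] (A : Finset (AddChar G ℂ)) (μ : G → ℝ) (σ R θ : ℝ)
    (J : Type) [Fintype J] (μJ : J → ℝ) (RJ : J → AddChar G ℂ) (α : AddChar G ℂ → ℝ),
    R0 ≤ R → (log R) ^ (-c) ≤ σ → C1 * (log R) ^ (-c) ≤ θ → IsProb μ →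
    (∀ y, (Fintype.card G : ℝ) * μ y ≤ exp R) → (∀ a ∈ A, σ ≤ ‖∑ y, (μ y : ℂ) * a y‖) →
    IsProb μJ → (∀ a, 0 ≤ α a) → (∀ a ∈ A, UnexplH μJ RJ α (θ * R) a) →
    exp (-(θ * R / 2)) ≤ ∑ a ∈ A, α a →
    ∃ (A' : Finset (AddChar G ℂ)) (lam : Law (AddChar G ℂ)) (y0 : G) (ρ : G → ℝ), A' ⊆ A ∧
      (A.card : ℝ) ≤ exp (2 * R) ∧
      IsUnit12 A' μ σ R (kp c C R) lam y0 ρ ∧
      H μJ RJ + θ * R / 5
        ≤ H (fun w : J × lam.Lt => μJ w.1 * lam.beta w.2) (fun w => RJ w.1 + lam.N w.2)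

/-- **UNITH from ADplus** -/
theorem unitH_of (hAD : ADplus) : UNITH := by
  classical
  obtain ⟨c, C, R0, hc, hC, hR0, h⟩ := hAD
  obtain ⟨R1, hR1, hnum⟩ := numerics c hc
  refine ⟨c, C, 10 * C + 20, max R0 R1, hc, hC, by linarith, lt_max_of_lt_left hR0, ?_⟩
  intro G _ _ A μ σ R θ J _ μJ RJ α hR hσ hθ hμ hd hbias hJ hα hun hmass
  obtain ⟨n1, n2, n3⟩ := hnum R ((le_max_right _ _).trans hR)
  have hR0' : R0 ≤ R := (le_max_left _ _).trans hR
  have hRpos : 0 < R := by linarith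
  have hrp : 0 < (log R) ^ (-c) := rpow_pos_of_pos n2 _
  have hσ0 : 0 < σ := hrp.trans_le hσ
  -- the cardinality of `A`
  have hcard : (A.card : ℝ) ≤ exp (2 * R) := by
    have h1 := card_biased A μ σ R hσ0 hμ hd hbias
    have h2 : (log R) ^ (-c) * (log R) ^ (-c) ≤ σ ^ 2 := by
      rw [sq]; exact mul_le_mul hσ hσ hrp.le hσ0.le
    have h3 : (A.card : ℝ) * ((log R) ^ (-c) * (log R) ^ (-c)) ≤ exp R :=
      (mul_le_mul_of_nonneg_left h2 (Nat.cast_nonneg _)).trans h1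
    have h4 : (log R) ^ (-c) * (log R) ^ (-c) = ((log R) ^ (2 * c))⁻¹ := by
      rw [← rpow_add n2, ← rpow_neg n2.le]; congr 1; ring
    rw [h4, ← div_eq_mul_inv, div_le_iff₀ (rpow_pos_of_pos n2 _)] at h3
    calc (A.card : ℝ) ≤ exp R * (log R) ^ (2 * c) := h3
      _ ≤ exp R * exp R := mul_le_mul_of_nonneg_left n1 (exp_pos R).le
      _ = exp (2 * R) := by rw [← exp_add]; congr 1; ring
  have hS : 0 < ∑ a ∈ A, α a := (exp_pos _).trans_le hmass
  obtain ⟨A', hA', hne, hdens⟩ := dense_subset A α (2 * R) hS hcard (by linarith)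
  obtain ⟨lam, y0, ρ, hu⟩ := h G A' μ σ R hR0' hσ hne hμ hd (fun a ha => hbias a (hA' ha))
  refine ⟨A', lam, y0, ρ, hA', hcard, hu, ?_⟩
  -- growth
  set b : ℝ := kp c C R * R + θ * R / 2 + log (2 * R + 2) with hb
  have hcardA' : (0 : ℝ) < A'.card := by exact_mod_cast card_pos.mpr hne
  have hkp : kp c C R = C * (log R) ^ (-c) := rfl
  have hkey : (log R) ^ (-c) * R * (10 * C + 20) ≤ θ * R := by
    have := mul_le_mul_of_nonneg_right hθ hRpos.le
    nlinarith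
  have hn3 : log (2 * R + 2) + 2 ≤ (log R) ^ (-c) * R := by linarith
  have hlog0 : 0 ≤ log (2 * R + 2) := log_nonneg (by linarith)
  have hQ : 0 ≤ C * ((log R) ^ (-c) * R) := by positivity
  have hg := growth lam hJ RJ α hα b (θ * R) (1 / 2)
    (by
      intro ω
      obtain ⟨hmem, hc1⟩ := hu.cost ω
      have h5 := hdens _ hmem
      have hPz := Pr_nonneg lam.prob lam.z (lam.z ω)
      have hP := Pr_nonneg lam.prob (fun ω => (lam.a ω, lam.z ω)) (lam.a ω, lam.z ω)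
      -- `e^{-θR/2} ≤ (2R+2) |A'| α(a)`
      have h6 : 1 ≤ exp (θ * R / 2) * ((2 * R + 2) * ((A'.card : ℝ) * α (lam.a ω))) := by
        have h7 : exp (-(θ * R / 2)) ≤ (2 * R + 2) * ((A'.card : ℝ) * α (lam.a ω)) := hmass.trans h5
        have h8 := mul_le_mul_of_nonneg_left h7 (exp_pos (θ * R / 2)).le
        rwa [← exp_add, add_neg_cancel, exp_zero] at h8
      have h9 : Pr lam.μ (fun ω => (lam.a ω, lam.z ω)) (lam.a ω, lam.z ω) * (A'.card : ℝ)
          ≤ (exp b * α (lam.a ω) * Pr lam.μ lam.z (lam.z ω)) * (A'.card : ℝ) := by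
        calc Pr lam.μ (fun ω => (lam.a ω, lam.z ω)) (lam.a ω, lam.z ω) * (A'.card : ℝ)
            ≤ exp (kp c C R * R) * Pr lam.μ lam.z (lam.z ω) := hc1
          _ ≤ exp (kp c C R * R) * Pr lam.μ lam.z (lam.z ω) *
              (exp (θ * R / 2) * ((2 * R + 2) * ((A'.card : ℝ) * α (lam.a ω)))) :=
              le_mul_of_one_le_right (mul_nonneg (exp_pos _).le hPz) h6
          _ = _ := by
              rw [hb, exp_add, exp_add, exp_log (by linarith : (0 : ℝ) < 2 * R + 2)]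
              ring
      exact le_of_mul_le_mul_right h9 hcardA')
    (fun ω => hun _ (hA' (hu.cost ω).1))
    (by
      rw [hb, hkp]
      nlinarith)
  refine le_trans ?_ hg
  rw [hb, hkp]
  nlinarith

end Vale.Agent.P091.Heart.H896
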